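import Vale.Agent.P066.Theta.H615.Triple

/-!
# Derivations, logarithmic derivatives, independence of the grading

`der φ` is the derivation `x^γ ↦ φ(γ) x^γ`.  On series supported on `{ω(·, b) = 0}` the functional
`F ↦ (F⁻¹ der φ F)(b)` is additive, and divided by `φ(b)` it does not depend on `φ`.
-/

set_option autoImplicit false

open Finset

namespace Vale.Agent.P066.Theta

noncomputable section

open QSeries

variable {r : ℕ} {B : Matrix (Fin r) (Fin r) ℤ}

/-- The derivation `x^γ ↦ φ(γ) x^γ`. -/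
def der (φ : Fin r → ℤ) (F : QSeries B) : QSeries B := fun γ => (wt φ γ : K) * F γ

theorem der_apply (φ : Fin r → ℤ) (F : QSeries B) (γ : Fin r →₀ ℕ) :
    der φ F γ = (wt φ γ : K) * F γ := rfl

theorem wt_one_eq_deg (γ : Fin r →₀ ℕ) : wt (fun _ => 1) γ = (deg γ : ℤ) := by
  simp [wt, deg]

theorem euler_eq_der (F : QSeries B) : euler F = der (fun _ => 1) F := by
  ext γ
  rw [der_apply, wt_one_eq_deg]
  simp [euler]

theorem der_mul (φ : Fin r → ℤ) (F G : QSeries B) :
    der φ (F * G) = der φ F * G + F * der φ G := by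
  ext γ
  rw [der_apply, add_apply, mul_apply, mul_apply, mul_apply, Finset.mul_sum, ← sum_add_distrib]
  refine sum_congr rfl fun p hp => ?_
  rw [HasAntidiagonal.mem_antidiagonal] at hp
  rw [der_apply, der_apply, ← hp, wt_add]
  push_cast
  ring

theorem der_comm (φ φ' : Fin r → ℤ) (F : QSeries B) : der φ (der φ' F) = der φ' (der φ F) := by
  ext γ
  simp only [der_apply]
  ring

theorem der_mem {S : AddSubmonoid (Fin r →₀ ℕ)} (φ : Fin r → ℤ) {F : QSeries B}
    (h : F ∈ supp (B := B) S) : der φ F ∈ supp (B := B) S := by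
  intro γ hγ
  apply h
  intro h0
  apply hγ
  rw [der_apply, h0, mul_zero]

@[simp] theorem der_zero_apply (φ : Fin r → ℤ) (F : QSeries B) : der φ F 0 = 0 := by
  rw [der_apply, wt_zero]
  simp

/-- A series with `F * L = der φ F`: the logarithmic derivative. -/
theorem exists_logDer (φ : Fin r → ℤ) {F : QSeries B} (h0 : F 0 = 1) :
    ∃ L : QSeries B, F * L = der φ F :=
  ⟨Ring.inverse F * der φ F, by
    rw [← mul_assoc, Ring.mul_inverse_cancel _ (isUnit_of_one h0), one_mul]⟩

theorem logDer_eq {φ : Fin r → ℤ} {F L : QSeries B} (h0 : F 0 = 1) (hL : F * L = der φ F) :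
    L = Ring.inverse F * der φ F := by
  rw [← hL, ← mul_assoc, Ring.inverse_mul_cancel _ (isUnit_of_one h0), one_mul]

theorem logDer_unique {φ : Fin r → ℤ} {F L L' : QSeries B} (h0 : F 0 = 1)
    (hL : F * L = der φ F) (hL' : F * L' = der φ F) : L = L' := by
  rw [logDer_eq h0 hL, logDer_eq h0 hL']

theorem logDer_mem_supp {S : AddSubmonoid (Fin r →₀ ℕ)} {φ : Fin r → ℤ} {F L : QSeries B}
    (h : F ∈ supp (B := B) S) (h0 : F 0 = 1) (hL : F * L = der φ F) :
    L ∈ supp (B := B) S := by
  rw [logDer_eq h0 hL]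
  exact (supp (B := B) S).mul_mem (inverse_mem_supp h (by rw [h0]; exact one_ne_zero))
    (der_mem φ h)

/-! ### the trace -/

/-- The coefficient at `b` is a trace on the series supported on `{ω(·, b) = 0}`. -/
theorem trace_comm (hB : B.transpose = -B) {F G : QSeries B} {b : Fin r →₀ ℕ}
    (hF : F ∈ supp (B := B) (zeroSub (chartAt B 0 b))) : (F * G) b = (G * F) b := by
  rw [mul_apply, mul_apply]
  refine sum_nbij' Prod.swap Prod.swap ?_ ?_ (fun _ _ => rfl) (fun _ _ => rfl) ?_
  · rintro ⟨p, q⟩ hp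
    rw [HasAntidiagonal.mem_antidiagonal] at hp ⊢
    rw [← hp, add_comm]
    rfl
  · rintro ⟨p, q⟩ hp
    rw [HasAntidiagonal.mem_antidiagonal] at hp ⊢
    rw [← hp, add_comm]
    rfl
  · rintro ⟨p, q⟩ hp
    rw [HasAntidiagonal.mem_antidiagonal] at hp
    simp only [Prod.swap_prod_mk]
    by_cases h : F p = 0
    · rw [h]
      ring
    · have h1 := hF p h
      rw [mem_zeroSub, wt_chartAt_zero] at h1
      have h2 : omega B (toZ p) (toZ q) = 0 := by
        have h3 : toZ b = toZ p + toZ q := by rw [← toZ_add]; exact congrArg toZ hp.symm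
        rw [h3, omega_add_right, omega_self hB, zero_add] at h1
        exact h1
      have h4 : omega B (toZ q) (toZ p) = 0 := by
        rw [omega_swap hB, h2, neg_zero]
      rw [h2, h4]
      ring

/-- Additivity of the logarithmic derivative at `b`. -/
theorem logDer_mul (hB : B.transpose = -B) {φ : Fin r → ℤ} {F G LF LG L : QSeries B}
    {b : Fin r →₀ ℕ}
    (hG : G ∈ supp (B := B) (zeroSub (chartAt B 0 b)))
    (hF0 : F 0 = 1) (hG0 : G 0 = 1)
    (hLF : F * LF = der φ F) (hLG : G * LG = der φ G) (hL : (F * G) * L = der φ (F * G)) :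
    L b = LF b + LG b := by
  have hG0' : G 0 ≠ 0 := by rw [hG0]; exact one_ne_zero
  have hu : IsUnit G := isUnit_of_one hG0
  have huF : IsUnit F := isUnit_of_one hF0
  have h1 : L = Ring.inverse G * (LF * G) + LG := by
    have h2 : (F * G) * (Ring.inverse G * (LF * G) + LG) = der φ (F * G) := by
      rw [der_mul, ← hLF, ← hLG, mul_add]
      congr 1
      · rw [mul_assoc F G, ← mul_assoc G, Ring.mul_inverse_cancel _ hu, one_mul, mul_assoc]
      · rw [mul_assoc]
    exact logDer_unique (by rw [mul_zero_apply, hF0, hG0, one_mul]) hL h2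
  rw [h1, add_apply]
  congr 1
  rw [trace_comm hB (inverse_mem_supp hG hG0'), mul_assoc, Ring.mul_inverse_cancel _ hu, mul_one]

/-- Conjugation does not change the coefficient at `b`. -/
theorem conj_apply (hB : B.transpose = -B) {F L : QSeries B} {b : Fin r →₀ ℕ}
    (hF : F ∈ supp (B := B) (zeroSub (chartAt B 0 b))) (hF0 : F 0 = 1) :
    (Ring.inverse F * L * F) b = L b := by
  have hF0' : F 0 ≠ 0 := by rw [hF0]; exact one_ne_zero
  rw [mul_assoc, trace_comm hB (inverse_mem_supp hF hF0'), mul_assoc,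
    Ring.mul_inverse_cancel _ (isUnit_of_one hF0), mul_one]

/-- Independence of the grading. -/
theorem logDer_weight (hB : B.transpose = -B) {φ ψ : Fin r → ℤ} {F L M : QSeries B}
    {b : Fin r →₀ ℕ}
    (hF : F ∈ supp (B := B) (zeroSub (chartAt B 0 b))) (hF0 : F 0 = 1)
    (hL : F * L = der φ F) (hM : F * M = der ψ F) :
    (wt ψ b : K) * L b = (wt φ b : K) * M b := by
  have hLm : L ∈ supp (B := B) (zeroSub (chartAt B 0 b)) := logDer_mem_supp hF hF0 hL
  -- F * (M L + ψL) = F * (L M + φ M)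
  have h1 : der ψ F * L + F * der ψ L = der φ F * M + F * der φ M := by
    rw [← der_mul, ← der_mul, hL, hM, der_comm]
  rw [← hL, ← hM, mul_assoc, mul_assoc, ← mul_add, ← mul_add] at h1
  have h2 : M * L + der ψ L = L * M + der φ M := by
    have hu := isUnit_of_one hF0
    have h3 := congrArg (fun X => Ring.inverse F * X) h1
    simp only [← mul_assoc, Ring.inverse_mul_cancel _ hu, one_mul] at h3
    exact h3
  have h3 := congrFun h2 b
  have h4 : (M * L) b = (L * M) b := (trace_comm hB hLm).symm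
  rw [show (M * L + der ψ L) b = (M * L) b + der ψ L b from rfl,
    show (L * M + der φ M) b = (L * M) b + der φ M b from rfl, h4, add_right_inj] at h3
  exact h3

/-! ### cluster elements and weights -/

/-- The attractor data in terms of an arbitrary weight. -/
theorem IsCluster.weight (hB : B.transpose = -B) {g : QSeries B} (hg : IsCluster B g)
    {b : Fin r →₀ ℕ} (hb : b ≠ 0) {gp g0 gm L : QSeries B} (φ : Fin r → ℤ)
    (hT : IsTriple g gp g0 gm (chartAt B 0 b)) (hL : g0 * L = der φ g0) :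
    (deg b : K) * L b = (wt φ b : K) * clusterData b := by
  obtain ⟨M, hM⟩ := exists_logDer (fun _ => 1) hT.g0_zero
  have h1 := logDer_weight hB hT.g0_mem hT.g0_zero hL hM
  rw [wt_one_eq_deg] at h1
  rw [← hg.2 b hb gp g0 gm M hT (by rw [hM, euler_eq_der])]
  exact_mod_cast h1

/-- To check the cluster property at `b` any weight positive at `b` can be used. -/
theorem clusterData_of_weight (hB : B.transpose = -B) {b : Fin r →₀ ℕ} {g0 L M : QSeries B}
    (φ : Fin r → ℤ) (hφ : wt φ b ≠ 0)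
    (h0 : g0 ∈ supp (B := B) (zeroSub (chartAt B 0 b))) (h00 : g0 0 = 1)
    (hM : g0 * M = der φ g0) (hMb : (deg b : K) * M b = (wt φ b : K) * clusterData b)
    (hL : g0 * L = euler g0) : L b = clusterData b := by
  rw [euler_eq_der] at hL
  have h1 := logDer_weight hB h0 h00 hM hL
  rw [wt_one_eq_deg] at h1
  have hφ' : (wt φ b : K) ≠ 0 := by exact_mod_cast hφ
  apply mul_left_cancel₀ hφ'
  rw [← hMb, ← h1]
  push_cast
  ring

/-! ### factorizations of products -/

/-- `X * h` with `X` on the positive side. -/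
theorem IsTriple.pos_mul {h hp h0 hm X : QSeries B} {Q : Fin r → ℤ}
    (hT : IsTriple h hp h0 hm Q) (hX0 : X 0 = 1) (hX : X ∈ supp (B := B) (posSub Q)) :
    IsTriple (X * h) (X * hp) h0 hm Q := by
  refine isTriple_iff.2 ⟨by rw [mul_zero_apply, hX0, hT.gp_zero, one_mul],
    (supp (B := B) _).mul_mem hX hT.gp_mem, hT.g0_zero, hT.g0_mem, hT.gm_zero, hT.gm_mem, ?_⟩
  rw [hT.eq]
  simp only [mul_assoc]

/-- `l * X` with `X` on the negative side. -/
theorem IsTriple.mul_neg {l lp l0 lm X : QSeries B} {Q : Fin r → ℤ}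
    (hT : IsTriple l lp l0 lm Q) (hX0 : X 0 = 1) (hX : X ∈ supp (B := B) (negSub Q)) :
    IsTriple (l * X) lp l0 (lm * X) Q := by
  refine isTriple_iff.2 ⟨hT.gp_zero, hT.gp_mem, hT.g0_zero, hT.g0_mem,
    by rw [mul_zero_apply, hX0, hT.gm_zero, one_mul], (supp (B := B) _).mul_mem hT.gm_mem hX, ?_⟩
  rw [hT.eq]
  simp only [mul_assoc]

/-- Conjugation by a series on `{Q = 0}` preserves the positive side. -/
theorem conj_mem_posSub {X F : QSeries B} {Q : Fin r → ℤ} (hX0 : X 0 = 1)
    (hX : X ∈ supp (B := B) (zeroSub Q)) (hF : F ∈ supp (B := B) (posSub Q)) (hF0 : F 0 = 1) :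
    X * F * Ring.inverse X ∈ supp (B := B) (posSub Q) := by
  have hXi : Ring.inverse X ∈ supp (B := B) (zeroSub Q) :=
    inverse_mem_supp hX (by rw [hX0]; exact one_ne_zero)
  -- write F = 1 + G
  have h1 : X * F * Ring.inverse X = 1 + X * (F - 1) * Ring.inverse X := by
    rw [mul_sub, sub_mul, mul_one, Ring.mul_inverse_cancel _ (isUnit_of_one hX0)]
    abel
  intro γ hγ
  by_contra hc
  rw [mem_posSub] at hc
  push Not at hc
  apply hγ
  rw [h1, add_apply, one_apply, if_neg hc.1, zero_add]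
  apply QSeries.mul_apply_eq_zero
  intro a c hac
  by_contra hne
  push Not at hne
  have h2 : wt Q c = 0 := hXi c hne.2
  have h3 : ∀ p q, p + q = a → X p = 0 ∨ (F - 1) q = 0 := by
    intro p q hpq
    by_contra hne2
    push Not at hne2
    have h4 : wt Q p = 0 := hX p hne2.1
    have h5 : q ≠ 0 := by
      rintro rfl
      apply hne2.2
      rw [sub_apply, hF0, one_zero, sub_self]
    have h6 : F q ≠ 0 := by
      intro h
      apply hne2.2
      rw [sub_apply, h, one_apply, if_neg h5, sub_zero]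
    have h7 : 0 < wt Q q := (mem_posSub.1 (hF q h6)).resolve_left h5
    have h8 : wt Q γ = wt Q p + wt Q q + wt Q c := by
      rw [← hac, ← hpq, wt_add, wt_add]
    omega
  exact hne.1 (QSeries.mul_apply_eq_zero h3)

/-- `X * h` with `X` on `{Q = 0}`. -/
theorem IsTriple.zero_mul {h hp h0 hm X : QSeries B} {Q : Fin r → ℤ}
    (hT : IsTriple h hp h0 hm Q) (hX0 : X 0 = 1) (hX : X ∈ supp (B := B) (zeroSub Q)) :
    IsTriple (X * h) (X * hp * Ring.inverse X) (X * h0) hm Q := by
  refine isTriple_iff.2 ⟨?_, conj_mem_posSub hX0 hX hT.gp_mem hT.gp_zero,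
    by rw [mul_zero_apply, hX0, hT.g0_zero, one_mul], (supp (B := B) _).mul_mem hX hT.g0_mem,
    hT.gm_zero, hT.gm_mem, ?_⟩
  · rw [mul_zero_apply, mul_zero_apply, hX0, hT.gp_zero, inverse_zero_apply hX0, one_mul, one_mul]
  · rw [hT.eq]
    have : X * hp * Ring.inverse X * (X * h0) = X * hp * h0 := by
      rw [mul_assoc (X * hp), ← mul_assoc (Ring.inverse X),
        Ring.inverse_mul_cancel _ (isUnit_of_one hX0), one_mul]
    rw [this]
    simp only [mul_assoc]

/-- Conjugation by a series on `{Q = 0}` preserves the negative side. -/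
theorem conj_mem_negSub {X F : QSeries B} {Q : Fin r → ℤ} (hX0 : X 0 = 1)
    (hX : X ∈ supp (B := B) (zeroSub Q)) (hF : F ∈ supp (B := B) (negSub Q)) (hF0 : F 0 = 1) :
    Ring.inverse X * F * X ∈ supp (B := B) (negSub Q) := by
  have hXi : Ring.inverse X ∈ supp (B := B) (zeroSub Q) :=
    inverse_mem_supp hX (by rw [hX0]; exact one_ne_zero)
  have h1 : Ring.inverse X * F * X = 1 + Ring.inverse X * (F - 1) * X := by
    rw [mul_sub, sub_mul, mul_one, Ring.inverse_mul_cancel _ (isUnit_of_one hX0)]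
    abel
  intro γ hγ
  by_contra hc
  rw [mem_negSub] at hc
  push Not at hc
  apply hγ
  rw [h1, add_apply, one_apply, if_neg hc.1, zero_add]
  apply QSeries.mul_apply_eq_zero
  intro a c hac
  by_contra hne
  push Not at hne
  have h2 : wt Q c = 0 := hX c hne.2
  have h3 : ∀ p q, p + q = a → Ring.inverse X p = 0 ∨ (F - 1) q = 0 := by
    intro p q hpq
    by_contra hne2
    push Not at hne2
    have h4 : wt Q p = 0 := hXi p hne2.1
    have h5 : q ≠ 0 := by
      rintro rfl
      apply hne2.2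
      rw [sub_apply, hF0, one_zero, sub_self]
    have h6 : F q ≠ 0 := by
      intro h
      apply hne2.2
      rw [sub_apply, h, one_apply, if_neg h5, sub_zero]
    have h7 : wt Q q < 0 := (mem_negSub.1 (hF q h6)).resolve_left h5
    have h8 : wt Q γ = wt Q p + wt Q q + wt Q c := by
      rw [← hac, ← hpq, wt_add, wt_add]
    omega
  exact hne.1 (QSeries.mul_apply_eq_zero h3)

/-- `l * X` with `X` on `{Q = 0}`. -/
theorem IsTriple.mul_zero {l lp l0 lm X : QSeries B} {Q : Fin r → ℤ}
    (hT : IsTriple l lp l0 lm Q) (hX0 : X 0 = 1) (hX : X ∈ supp (B := B) (zeroSub Q)) :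
    IsTriple (l * X) lp (l0 * X) (Ring.inverse X * lm * X) Q := by
  refine isTriple_iff.2 ⟨hT.gp_zero, hT.gp_mem,
    by rw [mul_zero_apply, hX0, hT.g0_zero, one_mul], (supp (B := B) _).mul_mem hT.g0_mem hX,
    ?_, conj_mem_negSub hX0 hX hT.gm_mem hT.gm_zero, ?_⟩
  · rw [mul_zero_apply, mul_zero_apply, hX0, hT.gm_zero, inverse_zero_apply hX0, one_mul, one_mul]
  · rw [hT.eq]
    have : l0 * X * (Ring.inverse X * lm * X) = l0 * lm * X := by
      rw [mul_assoc (Ring.inverse X), ← mul_assoc (l0 * X), mul_assoc l0 X,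
        Ring.mul_inverse_cancel _ (isUnit_of_one hX0), mul_one, mul_assoc]
    rw [mul_assoc lp (l0 * X), this]
    simp only [mul_assoc]

/-! ### dilogarithms of a vertex -/

theorem dilog_zero_apply (c : Fin r →₀ ℕ) : dilog B c 0 = 1 := by
  unfold dilog
  rw [sum_eq_single 0]
  · simp [psi]
  · intro m hm hne
    simp only [Finsupp.coe_zero, Pi.zero_apply, sum_const_zero, zero_add, mem_range] at hm
    omega
  · intro h
    simp at h

theorem dilog_single_ne {k : Fin r} {γ : Fin r →₀ ℕ} (h : dilog B (Finsupp.single k 1) γ ≠ 0) :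
    ∃ m : ℕ, γ = Finsupp.single k m := by
  unfold dilog at h
  obtain ⟨m, _, hm⟩ := exists_ne_zero_of_sum_ne_zero h
  by_cases hc : m • Finsupp.single k 1 = γ
  · exact ⟨m, by rw [← hc]; simp⟩
  · rw [if_neg hc] at hm
    exact absurd rfl hm

theorem wt_single (Q : Fin r → ℤ) (k : Fin r) (m : ℕ) :
    wt Q (Finsupp.single k m) = (m : ℤ) * Q k := by
  unfold wt
  rw [sum_eq_single k]
  · simp
  · intro i _ hi
    rw [Finsupp.single_apply, if_neg (Ne.symm hi)]
    simp
  · intro h
    exact absurd (mem_univ k) h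

theorem dilog_mem_posSub {Q : Fin r → ℤ} {k : Fin r} (hQ : 0 < Q k) :
    dilog B (Finsupp.single k 1) ∈ supp (B := B) (posSub Q) := by
  intro γ hγ
  obtain ⟨m, rfl⟩ := dilog_single_ne hγ
  rw [mem_posSub]
  rcases Nat.eq_zero_or_pos m with rfl | hm
  · left
    simp
  · right
    rw [wt_single]
    positivity

theorem dilog_mem_negSub {Q : Fin r → ℤ} {k : Fin r} (hQ : Q k < 0) :
    dilog B (Finsupp.single k 1) ∈ supp (B := B) (negSub Q) := by
  intro γ hγ
  obtain ⟨m, rfl⟩ := dilog_single_ne hγ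
  rw [mem_negSub]
  rcases Nat.eq_zero_or_pos m with rfl | hm
  · left
    simp
  · right
    rw [wt_single]
    have : (0 : ℤ) < m := by exact_mod_cast hm
    nlinarith

theorem dilog_mem_zeroSub {Q : Fin r → ℤ} {k : Fin r} (hQ : Q k = 0) :
    dilog B (Finsupp.single k 1) ∈ supp (B := B) (zeroSub Q) := by
  intro γ hγ
  obtain ⟨m, rfl⟩ := dilog_single_ne hγ
  rw [mem_zeroSub, wt_single, hQ, mul_zero]

/-- The logarithmic derivative of the dilogarithm of a vertex lives on its axis. -/
theorem logDer_dilog_apply {k : Fin r} {φ : Fin r → ℤ} {L : QSeries B}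
    (hL : dilog B (Finsupp.single k 1) * L = der φ (dilog B (Finsupp.single k 1)))
    {b : Fin r →₀ ℕ} (hb : ∀ m : ℕ, b ≠ Finsupp.single k m) : L b = 0 := by
  have h1 : dilog B (Finsupp.single k 1) ∈ supp (B := B)
      (AddMonoidHom.mrange (Finsupp.singleAddHom k : ℕ →+ (Fin r →₀ ℕ))) := by
    intro γ hγ
    obtain ⟨m, rfl⟩ := dilog_single_ne hγ
    exact ⟨m, rfl⟩
  by_contra hc
  obtain ⟨m, hm⟩ := logDer_mem_supp h1 (dilog_zero_apply _) hL b hc
  exact hb m hm.symm

/-- `Q_b(k) = 0`: the factor `Ψ(x_k)` on the left does not change the datum off the axis. -/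
theorem logDer_dilog_mul (hB : B.transpose = -B) {k : Fin r} {φ : Fin r → ℤ} {h0 L L' : QSeries B}
    {b : Fin r →₀ ℕ} (hb : ∀ m : ℕ, b ≠ Finsupp.single k m)
    (hh : h0 ∈ supp (B := B) (zeroSub (chartAt B 0 b))) (h00 : h0 0 = 1)
    (hL : h0 * L = der φ h0)
    (hL' : dilog B (Finsupp.single k 1) * h0 * L' = der φ (dilog B (Finsupp.single k 1) * h0)) :
    L' b = L b := by
  obtain ⟨M, hM⟩ := exists_logDer φ (dilog_zero_apply (B := B) (Finsupp.single k 1))
  rw [logDer_mul hB hh (dilog_zero_apply _) h00 hM hL hL', logDer_dilog_apply hM hb, zero_add]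

/-- `Q_b(k) = 0`: the factor `Ψ(x_k)` on the right does not change the datum off the axis. -/
theorem logDer_mul_dilog (hB : B.transpose = -B) {k : Fin r} {φ : Fin r → ℤ} {h0 L L' : QSeries B}
    {b : Fin r →₀ ℕ} (hb : ∀ m : ℕ, b ≠ Finsupp.single k m) (hk : chartAt B 0 b k = 0)
    (h00 : h0 0 = 1)
    (hL : h0 * L = der φ h0)
    (hL' : h0 * dilog B (Finsupp.single k 1) * L' = der φ (h0 * dilog B (Finsupp.single k 1))) :
    L' b = L b := by
  obtain ⟨M, hM⟩ := exists_logDer φ (dilog_zero_apply (B := B) (Finsupp.single k 1))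
  rw [logDer_mul hB (dilog_mem_zeroSub hk) h00 (dilog_zero_apply _) hL hM hL',
    logDer_dilog_apply hM hb, add_zero]

end

end Vale.Agent.P066.Theta
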